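import Vale.Agent.P162R49.Main

/-!
# P162: the mixing time of the Thorp shuffle, for the random deck

The deck has `n = 2 * m` cards.
-/

open MeasureTheory

universe u

namespace Vale.Agent.Results.P162.ARandomDeck

open Vale.Agent.P162.Statement Vale.Agent.P162R

theorem result :
    (∀ (m : ℕ) (c : Fin m → Bool) (D : Equiv.Perm (Fin (2 * m))), ∃! D', Step c D D') ∧
    (∀ (m : ℕ) (D₀ : Equiv.Perm (Fin (2 * m))), ∃ (Ω : Type) (_ : MeasurableSpace Ω)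
      (P : Measure Ω) (_ : IsProbabilityMeasure P) (coin : ℕ × Fin m → Ω → Bool)
      (D : ℕ → Ω → Equiv.Perm (Fin (2 * m))), IsThorp P coin D₀ D) ∧
    (∀ (m : ℕ) (Ω : Type u) [MeasurableSpace Ω] (P : Measure Ω) [IsProbabilityMeasure P]
      (coin : ℕ × Fin m → Ω → Bool) (D₀ : Equiv.Perm (Fin (2 * m)))
      (D : ℕ → Ω → Equiv.Perm (Fin (2 * m))), IsThorp P coin D₀ D →
      (∀ t, (∀ g, MeasurableSet {ω | D t ω = g}) ∧
        law P (fun ω => (D (t + 1) ω)⁻¹ * D t ω) = shuffleLaw m ∧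
        law P (fun ω => (D t ω)⁻¹ * D₀) = convPower (shuffleLaw m) t ∧
        distUniform (law P (D t)) = distUniform (convPower (shuffleLaw m) t)) ∧
      (1 ≤ m → IsLeast {t | distUniform (law P (D t)) ≤ 1 / 4} (mixTime m))) ∧
    ∃ (c C : ℝ) (C' : ℕ), 0 < c ∧ 0 < C ∧
      (∀ m : ℕ, 1 ≤ m → IsLeast (mixedTimes m) (mixTime m) ∧
        c * Real.log (2 * m : ℕ) ≤ mixTime m ∧ (mixTime m : ℝ) ≤ C * Real.log (2 * m : ℕ)) ∧
      ∀ d : ℕ, d + 1 ≤ mixTime (2 ^ d) ∧ mixTime (2 ^ d) ≤ C' * (d + 1) := by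
  refine ⟨fun _ => existsUnique_step, exists_thorp, fun m Ω _ P _ coin D₀ D h =>
    ⟨fun t => ⟨h.meas_deck t, h.law_step t, h.law_eq t, h.dist_eq t⟩, fun hm => ?_⟩, bounds⟩
  obtain ⟨c, C, C', -, -, h1, -⟩ := bounds
  rw [h.times_eq]
  exact (h1 m hm).1

end Vale.Agent.Results.P162.ARandomDeck
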